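import Vale.Agent.P323.Main
import Vale.Agent.P323.Idx
import Vale.Agent.P323.Dens

/-!
# Permutation models: coding with a prescribed group, the Ore property of universal groups
-/

namespace Vale.Agent.P323

universe u

variable {G : Type u} [Group G] {F : NormalFilter G}

/-- `coded` with a prescribed universal group `D`. -/
theorem coded_at (hPP : PP F) {K₀ : Subgroup G} (hK₀ : F.mem K₀) {D : Subgroup G} (hD : F.mem D)
    (huniv : ∀ K : Subgroup G, F.mem K → ∃ h ∈ K₀, ∀ x ∈ D, h * x * h⁻¹ ∈ K) :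
    ∃ K : Subgroup G, F.mem K ∧ K ≤ K₀ ∧
      ∀ P : Subgroup G, F.mem P → P ≤ K → ∃ h ∈ K₀, ∀ x, x ∈ P ↔ x ∈ K ∧ h⁻¹ * x * h ∈ D := by
  let ι : Type u := {M : Subgroup G // F.mem M ∧ D ≤ M}
  let E : ι → Subgroup G := fun _ => D
  let M : ι → Subgroup G := fun p => p.1
  let κ : ι → Type u := fun _ => PUnit
  obtain ⟨K, hK, hKK, j, hinj, hj⟩ := orb_inj hPP hK₀ (E := E) (M := M) (fun _ => hD)
    (fun p => p.2.1) (fun p => p.2.2) κ
  refine ⟨K, hK, hKK, ?_⟩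
  intro P hP hPK
  obtain ⟨h, hh, hhP⟩ := huniv P hP
  let M₁ : Subgroup G := P.comap (MulAut.conj h).toMonoidHom
  have hM₁ : ∀ x, x ∈ M₁ ↔ h * x * h⁻¹ ∈ P := fun x => Iff.rfl
  have hM₁F : F.mem M₁ := by
    refine F.up (F.conj h⁻¹ hP) ?_
    rintro x ⟨p, hp, rfl⟩
    rw [hM₁]
    have : h * ((MulAut.conj h⁻¹).toMonoidHom p) * h⁻¹ = p := by
      simp [mul_assoc]
    rw [this]
    exact hp
  let i : ι := ⟨M₁, hM₁F, fun x hx => (hM₁ x).mpr (hhP x hx)⟩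
  have ht : CP.mk M κ i h PUnit.unit ∈ orbCar K₀ M κ := mk_mem_orb hh
  obtain ⟨i', h', hh', t', hs⟩ := orb_exists (j ⟨_, ht⟩).2
  refine ⟨h', hh', ?_⟩
  have hfix1 : ∀ k, k • CP.mk M κ i h PUnit.unit = CP.mk M κ i h PUnit.unit ↔ k ∈ P := by
    intro k
    rw [CP.smul_mk, CP.mk_eq]
    have e : h * ((k * h)⁻¹ * h) * h⁻¹ = k⁻¹ := by group
    constructor
    · rintro ⟨h1, -⟩
      have h2 := (hM₁ _).mp h1
      rw [e] at h2
      simpa using P.inv_mem h2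
    · intro hk
      refine ⟨(hM₁ _).mpr ?_, rfl⟩
      rw [e]
      exact P.inv_mem hk
  have hfix2 : ∀ k, k • CP.mk E κ i' h' t' = CP.mk E κ i' h' t' ↔ h'⁻¹ * k * h' ∈ D := by
    intro k
    rw [CP.smul_mk, CP.mk_eq]
    have e : ((k * h')⁻¹ * h')⁻¹ = h'⁻¹ * k * h' := by group
    constructor
    · rintro ⟨h1, -⟩
      have h2 := D.inv_mem h1
      rwa [e] at h2
    · intro hk
      refine ⟨?_, rfl⟩
      have h2 := D.inv_mem hk
      rw [← e, inv_inv] at h2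
      exact h2
  intro x
  constructor
  · intro hx
    refine ⟨hPK hx, ?_⟩
    rw [← hfix2]
    have h1 := hj x (hPK hx) ⟨_, ht⟩ (smul_mem_orb ht (hKK (hPK hx)))
    have h2 : (⟨x • CP.mk M κ i h PUnit.unit, smul_mem_orb ht (hKK (hPK hx))⟩ :
        orbCar K₀ M κ) = ⟨_, ht⟩ := Subtype.ext ((hfix1 x).mpr hx)
    rw [h2, hs] at h1
    exact h1.symm
  · rintro ⟨hxK, hx⟩
    rw [← hfix1]
    have h1 := hj x hxK ⟨_, ht⟩ (smul_mem_orb ht (hKK hxK))
    rw [hs, (hfix2 x).mpr hx, ← hs] at h1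
    exact congrArg Subtype.val (hinj (Subtype.ext h1))

/-- the left cosets of `L` in `L g L` are countably many -/
def CC (L : Subgroup G) (g : G) : Prop :=
  ∃ T : Set G, T.Countable ∧ ∀ l ∈ L, ∃ t ∈ T, t⁻¹ * (l * g) ∈ L

/-- **Ore property.** If `L` is universal in `E`, the elements of `E` are `v b` with
`v L v⁻¹ ≤ L` and `b⁻¹ L b ≤ L`. -/
theorem CC_of_univ {E L : Subgroup G} (hL : F.mem L)
    (huniv : ∀ D : Subgroup G, F.mem D → ∃ h ∈ E, ∀ x ∈ L, h * x * h⁻¹ ∈ D)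
    (hv : ∀ v ∈ E, (∀ x ∈ L, v * x * v⁻¹ ∈ L) → CC L v) {g : G} (_hg : g ∈ E) : CC L g := by
  obtain ⟨v, hvE, hvL⟩ := huniv (L ⊓ cj g L) (F.inter hL (mem_of_cj g hL))
  obtain ⟨T, hT, hTL⟩ := hv v hvE (fun x hx => (hvL x hx).1)
  refine ⟨(fun t => t * (v⁻¹ * g)) '' T, hT.image _, ?_⟩
  intro l hl
  obtain ⟨t, ht, htl⟩ := hTL l hl
  refine ⟨_, ⟨t, ht, rfl⟩, ?_⟩
  have h1 := mem_cj.mp (hvL _ htl).2
  have e : g⁻¹ * (v * (t⁻¹ * (l * v)) * v⁻¹) * g = (t * (v⁻¹ * g))⁻¹ * (l * g) := by group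
  rwa [e] at h1

/-- countable generation over `L` gives countable index -/
theorem countable_closure {L : Subgroup G} {S : Set G} (hS : S.Countable)
    (h1 : ∀ g ∈ S, CC L g) (h2 : ∀ g ∈ S, CC L g⁻¹) :
    ∃ W : Set G, W.Countable ∧ ∀ x ∈ Subgroup.closure ((L : Set G) ∪ S), ∃ w ∈ W, w⁻¹ * x ∈ L := by
  classical
  choose! T hT hTL using h1
  choose! T' hT' hTL' using h2
  let T₀ : Set G := (⋃ g ∈ S, T g) ∪ ⋃ g ∈ S, T' g
  have hT₀ : T₀.Countable :=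
    (hS.biUnion fun g hg => hT g hg).union (hS.biUnion fun g hg => hT' g hg)
  have : Countable T₀ := hT₀.to_subtype
  let W : Set G := Set.range fun l : List T₀ => (l.map Subtype.val).prod
  have hW1 : (1 : G) ∈ W := ⟨[], rfl⟩
  have hWm : ∀ w ∈ W, ∀ t ∈ T₀, w * t ∈ W := by
    rintro w ⟨l, rfl⟩ t ht
    exact ⟨l ++ [⟨t, ht⟩], by simp⟩
  refine ⟨W, Set.countable_range _, ?_⟩
  intro x hx
  induction hx using Subgroup.closure_induction_right with
  | one => exact ⟨1, hW1, by simp [L.one_mem]⟩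
  | mul_right x hx y hy ih =>
    obtain ⟨w, hw, hwx⟩ := ih
    rcases hy with hy | hy
    · refine ⟨w, hw, ?_⟩
      have := L.mul_mem hwx hy
      rwa [mul_assoc] at this
    · obtain ⟨t, ht, htl⟩ := hTL y hy _ hwx
      refine ⟨w * t, hWm w hw t (Or.inl (Set.mem_biUnion hy ht)), ?_⟩
      have e : t⁻¹ * (w⁻¹ * x * y) = (w * t)⁻¹ * (x * y) := by group
      rwa [e] at htl
  | mul_inv_cancel x hx y hy ih =>
    obtain ⟨w, hw, hwx⟩ := ih
    rcases hy with hy | hy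
    · refine ⟨w, hw, ?_⟩
      have := L.mul_mem hwx (L.inv_mem hy)
      rwa [mul_assoc] at this
    · obtain ⟨t, ht, htl⟩ := hTL' y hy _ hwx
      refine ⟨w * t, hWm w hw t (Or.inr (Set.mem_biUnion hy ht)), ?_⟩
      have e : t⁻¹ * (w⁻¹ * x * y⁻¹) = (w * t)⁻¹ * (x * y⁻¹) := by group
      rwa [e] at htl

/-- a universal group of countable index gives small indices -/
theorem smallIndex_of_countable {E L : Subgroup G} (hE : F.mem E)
    (huniv : ∀ D : Subgroup G, F.mem D → ∃ h ∈ E, ∀ x ∈ L, h * x * h⁻¹ ∈ D)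
    {W : Set G} (hW : W.Countable) (hWL : ∀ x ∈ E, ∃ w ∈ W, w⁻¹ * x ∈ L) : SmallIndex F := by
  refine ⟨E, hE, ?_⟩
  intro D hD hDE
  obtain ⟨h, hh, hhD⟩ := huniv D hD
  refine lt_of_le_of_lt ?_ Cardinal.aleph0_lt_continuum
  have : Countable (E ⧸ D.subgroupOf E) := by
    have hex : ∀ q : E ⧸ D.subgroupOf E, ∃ w : W, ∃ e : E, (e : E ⧸ D.subgroupOf E) = q ∧
        (w : G)⁻¹ * (e * h) ∈ L := by
      intro q
      obtain ⟨e, rfl⟩ := QuotientGroup.mk_surjective q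
      obtain ⟨w, hw, hwe⟩ := hWL (e * h) (E.mul_mem e.2 hh)
      exact ⟨⟨w, hw⟩, e, rfl, hwe⟩
    choose f g hg hf using hex
    have : Countable W := hW.to_subtype
    apply Function.Injective.countable (f := f)
    intro p q hpq
    rw [← hg p, ← hg q, QuotientGroup.eq, Subgroup.mem_subgroupOf]
    have h1 := hf p
    have h2 := hf q
    rw [hpq] at h1
    have h3 := hhD _ (L.mul_mem (L.inv_mem h1) h2)
    have e : h * (((f q : G)⁻¹ * (g p * h))⁻¹ * ((f q : G)⁻¹ * (g q * h))) * h⁻¹ =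
        (((g p)⁻¹ * g q : E) : G) := by push_cast; group
    rwa [e] at h3
  exact Cardinal.mk_le_aleph0

end Vale.Agent.P323
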