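import Vale.Agent.P323.N.Core

/-!
# Permutation models: groups satisfying a law

If the filter has the uniformity property and no least member, then no group of the filter
satisfies a non-trivial group law.
-/

namespace Vale.Agent.P323

universe u

variable {G : Type u} [Group G] {F : NormalFilter G}

/-- the least member of the filter normal in `P` -/
def nor (F : NormalFilter G) (P : Subgroup G) : Subgroup G :=
  sInf {N | F.mem N ∧ N ≤ P ∧ ∀ g ∈ P, ∀ x ∈ N, g * x * g⁻¹ ∈ N}

theorem nor_mem (hU : Unif F) {P : Subgroup G} (hP : F.mem P) : F.mem (nor F P) := by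
  obtain ⟨E, hE, -, hu⟩ := hU P hP
  refine F.up hE (le_sInf ?_)
  rintro N ⟨hN, hNP, hn⟩ x hx
  obtain ⟨h, hh, hx'⟩ := hu N hN
  have := hn h⁻¹ (P.inv_mem hh) _ (hx' x hx)
  have e : h⁻¹ * (h * x * h⁻¹) * h⁻¹⁻¹ = x := by group
  rwa [e] at this

theorem nor_le {P : Subgroup G} (hP : F.mem P) : nor F P ≤ P :=
  sInf_le ⟨hP, le_rfl, fun _ hg _ hx => P.mul_mem (P.mul_mem hg hx) (P.inv_mem hg)⟩

/-- a point not fixed by `nor F P` has a `P`-orbit which is not fixed pointwise by any group of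
the filter -/
theorem orbit_not_fixed {P D E : Subgroup G} (hP : F.mem P) (hE : F.mem E)
    (h : ¬ nor F P ≤ D) : ∃ h ∈ P, ¬ E ≤ cj h D := by
  by_contra hcon
  push Not at hcon
  apply h
  let N : Subgroup G := P ⊓ ⨅ h : P, cj (h : G) D
  have hN : F.mem N := by
    refine F.up (F.inter hP hE) (le_inf inf_le_left (le_iInf fun h => ?_))
    exact inf_le_right.trans (hcon h h.2)
  have hNn : ∀ g ∈ P, ∀ x ∈ N, g * x * g⁻¹ ∈ N := by
    rintro g hg x ⟨hxP, hx⟩
    refine ⟨P.mul_mem (P.mul_mem hg hxP) (P.inv_mem hg), ?_⟩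
    replace hx := Subgroup.mem_iInf.mp hx
    refine Subgroup.mem_iInf.mpr fun h => ?_
    have h1 := mem_cj.mp (hx ⟨g⁻¹ * h, P.mul_mem (P.inv_mem hg) h.2⟩)
    rw [mem_cj]
    have e : ((⟨g⁻¹ * h, P.mul_mem (P.inv_mem hg) h.2⟩ : P) : G)⁻¹ * x *
        ((⟨g⁻¹ * h, P.mul_mem (P.inv_mem hg) h.2⟩ : P) : G) =
        (h : G)⁻¹ * (g * x * g⁻¹) * h := by
      show (g⁻¹ * (h : G))⁻¹ * x * (g⁻¹ * h) = _
      group
    rwa [e] at h1
  calc nor F P ≤ N := sInf_le ⟨hN, inf_le_left, hNn⟩
    _ ≤ ⨅ h : P, cj (h : G) D := inf_le_right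
    _ ≤ cj ((1 : P) : G) D := iInf_le (fun h : P => cj (h : G) D) 1
    _ = D := cj_one D

/-- the value of a letter -/
def let1 (φ : ℕ → G) (a : ℕ × Bool) : G := cond a.2 (φ a.1) (φ a.1)⁻¹

/-- the value of a word -/
def ev (φ : ℕ → G) : List (ℕ × Bool) → G
  | [] => 1
  | a :: l => let1 φ a * ev φ l

/-- the elements of `K` fixing the points `ev φ l' D` for the proper final segments `l'` -/
def fixp (K D : Subgroup G) (φ : ℕ → G) : List (ℕ × Bool) → Subgroup G
  | [] => K
  | _ :: l => fixp K D φ l ⊓ cj (ev φ l) D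

theorem fixp_mem {K D : Subgroup G} (hK : F.mem K) (hD : F.mem D) (φ : ℕ → G) :
    ∀ l, F.mem (fixp K D φ l)
  | [] => hK
  | _ :: l => F.inter (fixp_mem hK hD φ l) (mem_of_cj _ hD)

theorem fixp_suffix {K D : Subgroup G} {φ : ℕ → G} :
    ∀ {l l' : List (ℕ × Bool)}, l' <:+ l → l' ≠ l → fixp K D φ l ≤ cj (ev φ l') D
  | [], l', h, hne => absurd (List.suffix_nil.mp h) hne
  | a :: l, l', h, hne => by
    rcases List.suffix_cons_iff.mp h with h1 | h1
    · exact absurd h1 hne
    · by_cases h2 : l' = l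
      · subst h2
        exact inf_le_right
      · exact inf_le_left.trans (fixp_suffix h1 h2)

/-- changing one generator by an element of `fixp` does not move the trajectory -/
theorem ev_update {K D : Subgroup G} {φ φ' : ℕ → G} {j : ℕ} {b : Bool} {h : G}
    {l : List (ℕ × Bool)} (hred : FreeGroup.IsReduced ((j, b) :: l)) (hh : h ∈ fixp K D φ l)
    (hφ : ∀ i, i ≠ j → φ' i = φ i) (hj : let1 φ' (j, b) = let1 φ (j, b) * h) :
    ∀ {l' : List (ℕ × Bool)}, l' <:+ l → (ev φ l')⁻¹ * ev φ' l' ∈ D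
  | [], _ => by simp [ev, D.one_mem]
  | (a, c) :: l', hs => by
    have hs' : l' <:+ l := (List.suffix_cons (a, c) l').trans hs
    have hne : l' ≠ l := by
      rintro rfl
      have := hs.length_le
      simp at this
    have ih := ev_update hred hh hφ hj hs'
    have hfix : (ev φ l')⁻¹ * h * ev φ l' ∈ D := mem_cj.mp (fixp_suffix hs' hne hh)
    have hfixi : (ev φ l')⁻¹ * h⁻¹ * ev φ l' ∈ D := by
      have := D.inv_mem hfix
      have e : ((ev φ l')⁻¹ * h * ev φ l')⁻¹ = (ev φ l')⁻¹ * h⁻¹ * ev φ l' := by group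
      rwa [e] at this
    -- it is enough to move the letter
    suffices hmid : (ev φ l')⁻¹ * (let1 φ (a, c))⁻¹ * let1 φ' (a, c) * ev φ l' ∈ D by
      have := D.mul_mem hmid ih
      have e : (ev φ l')⁻¹ * (let1 φ (a, c))⁻¹ * let1 φ' (a, c) * ev φ l' *
          ((ev φ l')⁻¹ * ev φ' l') = (ev φ ((a, c) :: l'))⁻¹ * ev φ' ((a, c) :: l') := by
        simp only [ev]
        group
      rwa [e] at this
    by_cases haj : a = j
    · subst haj
      by_cases hcb : c = b
      · subst hcb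
        rw [hj]
        have e : (ev φ l')⁻¹ * (let1 φ (a, c))⁻¹ * (let1 φ (a, c) * h) * ev φ l' =
            (ev φ l')⁻¹ * h * ev φ l' := by group
        rwa [e]
      · -- the opposite letter: the segment is proper
        have hne2 : (a, c) :: l' ≠ l := by
          rintro rfl
          have := (FreeGroup.isReduced_cons_cons.mp hred).1 rfl
          exact hcb this.symm
        have hf2 : (ev φ ((a, c) :: l'))⁻¹ * h * ev φ ((a, c) :: l') ∈ D :=
          mem_cj.mp (fixp_suffix hs hne2 hh)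
        have hinv : ∀ ψ : ℕ → G, let1 ψ (a, c) = (let1 ψ (a, b))⁻¹ := by
          intro ψ
          cases b <;> cases c <;> simp_all [let1]
        have h3 := D.inv_mem hf2
        have e : ((ev φ ((a, c) :: l'))⁻¹ * h * ev φ ((a, c) :: l'))⁻¹ =
            (ev φ l')⁻¹ * (let1 φ (a, c))⁻¹ * let1 φ' (a, c) * ev φ l' := by
          simp only [ev]
          rw [hinv φ', hj, hinv φ]
          group
        rwa [e] at h3
    · have e1 : let1 φ' (a, c) = let1 φ (a, c) := by
        unfold let1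
        simp only [hφ a haj]
      rw [e1]
      have e : (ev φ l')⁻¹ * (let1 φ (a, c))⁻¹ * let1 φ (a, c) * ev φ l' = 1 := by group
      rw [e]
      exact D.one_mem

theorem fixp_update {D : Subgroup G} {φ φ' : ℕ → G} {l : List (ℕ × Bool)}
    (h : ∀ {l' : List (ℕ × Bool)}, l' <:+ l → (ev φ l')⁻¹ * ev φ' l' ∈ D) :
    ∀ {l' : List (ℕ × Bool)}, l' <:+ l → cj (ev φ' l') D = cj (ev φ l') D := by
  intro l' hs
  have h1 := h hs
  have e : ev φ' l' = ev φ l' * ((ev φ l')⁻¹ * ev φ' l') := by group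
  rw [e, cj_mul, cj_self h1]

theorem fixp_congr {K D : Subgroup G} {φ φ' : ℕ → G} :
    ∀ {l : List (ℕ × Bool)}, (∀ {l' : List (ℕ × Bool)}, l' <:+ l → l' ≠ l →
      cj (ev φ' l') D = cj (ev φ l') D) → fixp K D φ' l = fixp K D φ l
  | [], _ => rfl
  | a :: l, h => by
    have h1 : fixp K D φ' l = fixp K D φ l := fixp_congr fun {l'} hs hne =>
      h (hs.trans (List.suffix_cons a l)) (by
        rintro rfl
        have := hs.length_le
        simp at this)
    have h2 : cj (ev φ' l) D = cj (ev φ l) D := h (List.suffix_cons a l) (by simp)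
    simp only [fixp, h1, h2]

/-- the trajectory of a reduced word can be made to escape at every step -/
theorem exists_escape (hU : Unif F) {K D : Subgroup G} (hK : F.mem K) (hD : F.mem D)
    (hKD : ¬ nor F K ≤ D) : ∀ l : List (ℕ × Bool), FreeGroup.IsReduced l →
      ∃ φ : ℕ → G, (∀ i, φ i ∈ K) ∧ ¬ nor F (fixp K D φ l) ≤ cj (ev φ l) D
  | [], _ => ⟨fun _ => 1, fun _ => K.one_mem, by
      show ¬ nor F K ≤ cj 1 D
      rwa [cj_one]⟩
  | (j, b) :: l, hred => by
    have hl : FreeGroup.IsReduced l := List.IsChain.tail hred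
    obtain ⟨φ, hφK, hφ⟩ := exists_escape hU hK hD hKD l hl
    have hfm := fixp_mem hK hD φ l
    let N' := nor F (fixp K D φ ((j, b) :: l))
    have hN' : F.mem N' := nor_mem hU (fixp_mem hK hD φ _)
    obtain ⟨h, hh, hnot⟩ := orbit_not_fixed hfm (mem_of_cj (let1 φ (j, b))⁻¹ hN') hφ
    have hhK : h ∈ K := by
      have : ∀ l, fixp K D φ l ≤ K := by
        intro l
        induction l with
        | nil => exact le_rfl
        | cons a l ih => exact inf_le_left.trans ih
      exact this l hh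
    classical
    let φ' : ℕ → G := fun i => if i = j then (cond b (φ j * h) (h⁻¹ * φ j)) else φ i
    have hφ'K : ∀ i, φ' i ∈ K := by
      intro i
      by_cases hi : i = j
      · subst hi
        cases b
        · simpa [φ'] using K.mul_mem (K.inv_mem hhK) (hφK i)
        · simpa [φ'] using K.mul_mem (hφK i) hhK
      · simpa [φ', hi] using hφK i
    have hφ'ne : ∀ i, i ≠ j → φ' i = φ i := fun i hi => by simp [φ', hi]
    have hφ'j : let1 φ' (j, b) = let1 φ (j, b) * h := by
      cases b <;> simp [let1, φ', mul_inv_rev]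
    have hev : ∀ {l' : List (ℕ × Bool)}, l' <:+ l → (ev φ l')⁻¹ * ev φ' l' ∈ D :=
      ev_update hred hh hφ'ne hφ'j
    have hcj : ∀ {l' : List (ℕ × Bool)}, l' <:+ l → cj (ev φ' l') D = cj (ev φ l') D :=
      fixp_update hev
    refine ⟨φ', hφ'K, ?_⟩
    have h1 : fixp K D φ' ((j, b) :: l) = fixp K D φ ((j, b) :: l) := by
      simp only [fixp, hcj (List.suffix_refl l)]
      rw [fixp_congr (K := K) (D := D) (φ := φ) (φ' := φ') fun hs _ => hcj hs]
    rw [h1]
    intro hle
    apply hnot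
    have h2 : cj (ev φ' ((j, b) :: l)) D = cj (let1 φ (j, b)) (cj h (cj (ev φ l) D)) := by
      show cj (let1 φ' (j, b) * ev φ' l) D = _
      rw [hφ'j, cj_mul, cj_mul, hcj (List.suffix_refl l)]
    rw [h2] at hle
    have h3 := cj_mono (let1 φ (j, b))⁻¹ hle
    rwa [← cj_mul (let1 φ (j, b))⁻¹ (let1 φ (j, b)), inv_mul_cancel, cj_one] at h3

theorem ev_eq_lift (φ : ℕ → G) : ∀ l : List (ℕ × Bool), ev φ l = FreeGroup.lift φ (FreeGroup.mk l)
  | [] => by simp [ev, ← FreeGroup.one_eq_mk]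
  | (a, b) :: l => by
    have h := ev_eq_lift φ l
    rw [FreeGroup.lift_mk] at h ⊢
    simp only [ev, List.map_cons, List.prod_cons, h]
    rfl

/-- **Laws.** -/
theorem least_of_law (hU : Unif F)
    (h : ∃ K : Subgroup G, F.mem K ∧ ∃ w : FreeGroup ℕ, w ≠ 1 ∧
      ∀ φ : ℕ → G, (∀ i, φ i ∈ K) → FreeGroup.lift φ w = 1) :
    ∃ E, F.mem E ∧ ∀ D, F.mem D → E ≤ D := by
  by_contra hcon
  push Not at hcon
  obtain ⟨K, hK, w, hw, hlaw⟩ := h
  obtain ⟨D, hD, hKD⟩ := hcon (nor F K) (nor_mem hU hK)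
  obtain ⟨φ, hφK, hφ⟩ := exists_escape hU hK hD hKD w.toWord FreeGroup.isReduced_toWord
  have h1 : ev φ w.toWord = 1 := by
    rw [ev_eq_lift, FreeGroup.mk_toWord]
    exact hlaw φ hφK
  apply hφ
  rw [h1]
  refine (nor_le (fixp_mem hK hD φ _)).trans ?_
  have hne : ([] : List (ℕ × Bool)) ≠ w.toWord := by
    intro h2
    exact hw (FreeGroup.toWord_eq_nil_iff.mp h2.symm)
  have := fixp_suffix (K := K) (D := D) (φ := φ) (List.nil_suffix (l := w.toWord)) hne
  exact this

end Vale.Agent.P323
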