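import Vale.Agent.P323.N.Pol
import Vale.Agent.P323.Defs3

/-!
# Closed permutation groups of countable sets are Polish
-/

namespace Vale.Agent.P323

open Topology

universe u

theorem polish_perm {A : Type u} [Countable A] (Γ : Subgroup (Equiv.Perm A))
    (hΓ : ∀ f : Equiv.Perm A, (∀ s : Finset A, ∃ g ∈ Γ, ∀ a ∈ s, g a = f a) → f ∈ Γ) :
    ∃ t : TopologicalSpace Γ, @IsTopologicalGroup Γ t _ ∧ @PolishSpace Γ t ∧
      ∀ a : A, @IsClosed Γ t {g : Γ | g • a = a} := by
  let _ : TopologicalSpace A := ⊥
  have : DiscreteTopology A := ⟨rfl⟩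
  let e : Γ → (A → A) × (A → A) := fun g => (fun a => g.1 a, fun a => g.1⁻¹ a)
  let t : TopologicalSpace Γ := TopologicalSpace.induced e inferInstance
  have he : Continuous e := continuous_induced_dom
  have heval : Continuous fun p : (A → A) × A => p.1 p.2 :=
    continuous_prod_of_discrete_right.2 fun b => continuous_apply b
  have h1 : ∀ a, Continuous fun g : Γ => g.1 a := fun a =>
    (continuous_apply a).comp (continuous_fst.comp he)
  have h2 : ∀ a, Continuous fun g : Γ => g.1⁻¹ a := fun a =>
    (continuous_apply a).comp (continuous_snd.comp he)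
  have hinj : Function.Injective e := by
    intro g h hgh
    apply Subtype.ext
    apply Equiv.ext
    intro a
    exact congrFun (congrArg Prod.fst hgh) a
  have hmul : Continuous fun p : Γ × Γ => p.1 * p.2 := by
    apply continuous_induced_rng.2
    refine Continuous.prodMk (continuous_pi fun a => ?_) (continuous_pi fun a => ?_)
    · have := heval.comp (Continuous.prodMk (continuous_fst.comp (he.comp continuous_fst))
        ((h1 a).comp continuous_snd) : Continuous fun p : Γ × Γ => ((e p.1).1, p.2.1 a))
      exact this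
    · have := heval.comp (Continuous.prodMk (continuous_snd.comp (he.comp continuous_snd))
        ((h2 a).comp continuous_fst) : Continuous fun p : Γ × Γ => ((e p.2).2, p.1.1⁻¹ a))
      have e1 : (fun p : Γ × Γ => (((p.1 * p.2 : Γ) : Equiv.Perm A))⁻¹ a) =
          fun p : Γ × Γ => (e p.2).2 (p.1.1⁻¹ a) := by
        funext p
        simp [e, mul_inv_rev]
      show Continuous fun p : Γ × Γ => (((p.1 * p.2 : Γ) : Equiv.Perm A))⁻¹ a
      rw [e1]
      exact this
  have hinv : Continuous fun g : Γ => g⁻¹ := by
    apply continuous_induced_rng.2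
    refine Continuous.prodMk (continuous_pi fun a => ?_) (continuous_pi fun a => ?_)
    · exact h2 a
    · have e1 : (fun g : Γ => ((g⁻¹ : Γ) : Equiv.Perm A)⁻¹ a) = fun g : Γ => g.1 a := by
        funext g
        simp
      show Continuous fun g : Γ => ((g⁻¹ : Γ) : Equiv.Perm A)⁻¹ a
      rw [e1]
      exact h1 a
  have hgrp : IsTopologicalGroup Γ := { continuous_mul := hmul, continuous_inv := hinv }
  have hrange : Set.range e = (⋂ a : A, {p : (A → A) × (A → A) | p.2 (p.1 a) = a}) ∩
      (⋂ a : A, {p : (A → A) × (A → A) | p.1 (p.2 a) = a}) ∩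
      ⋂ s : Finset A, {p : (A → A) × (A → A) | ∃ g ∈ Γ, ∀ a ∈ s, g a = p.1 a} := by
    ext p
    simp only [Set.mem_range, Set.mem_inter_iff, Set.mem_iInter, Set.mem_ofPred_eq]
    constructor
    · rintro ⟨g, rfl⟩
      exact ⟨⟨fun a => by simp [e], fun a => by simp [e]⟩, fun s => ⟨g, g.2, fun a _ => rfl⟩⟩
    · rintro ⟨⟨h1, h2⟩, h3⟩
      let f : Equiv.Perm A := ⟨p.1, p.2, h1, h2⟩
      exact ⟨⟨f, hΓ f h3⟩, rfl⟩
  have hclosed : IsClosed (Set.range e) := by
    rw [hrange]
    refine (IsClosed.inter (isClosed_iInter fun a => ?_) (isClosed_iInter fun a => ?_)).inter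
      (isClosed_iInter fun s => ?_)
    · exact isClosed_eq (heval.comp (Continuous.prodMk continuous_snd
        ((continuous_apply a).comp continuous_fst))) continuous_const
    · exact isClosed_eq (heval.comp (Continuous.prodMk continuous_fst
        ((continuous_apply a).comp continuous_snd))) continuous_const
    · have hc : Continuous fun p : (A → A) × (A → A) => fun a : s => p.1 a :=
        continuous_pi fun a => (continuous_apply (a : A)).comp continuous_fst
      have : {p : (A → A) × (A → A) | ∃ g ∈ Γ, ∀ a ∈ s, g a = p.1 a} =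
          (fun p : (A → A) × (A → A) => fun a : s => p.1 a) ⁻¹'
            {q : s → A | ∃ g ∈ Γ, ∀ a : s, g a = q a} := by
        ext p
        simp
      rw [this]
      exact (isClosed_discrete _).preimage hc
  have hemb : IsClosedEmbedding e := ⟨⟨⟨rfl⟩, hinj⟩, hclosed⟩
  have hpol0 : PolishSpace ((A → A) × (A → A)) := {}
  have hpol : PolishSpace Γ := hemb.polishSpace
  refine ⟨t, hgrp, hpol, fun a => ?_⟩
  exact isClosed_eq (h1 a) continuous_const

/-- a closed permutation group of a countable set, any ideal of supports -/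
theorem smallIndex_of_closed_perm {A : Type u} [Countable A] (Γ : Subgroup (Equiv.Perm A))
    (hΓ : ∀ f : Equiv.Perm A, (∀ s : Finset A, ∃ g ∈ Γ, ∀ a ∈ s, g a = f a) → f ∈ Γ)
    (I : SuppIdeal Γ A) (hPP : PP (suppFilter I)) (hU : Unif (suppFilter I)) :
    SmallIndex (suppFilter I) := by
  obtain ⟨t, h1, h2, h3⟩ := polish_perm Γ hΓ
  refine smallIndex_of_polish hPP hU ?_
  rintro K ⟨e, he, hK⟩
  refine ⟨⨅ a ∈ e, MulAction.stabilizer Γ a, ⟨e, he, fun g hg => ?_⟩, fun g hg => ?_, ?_⟩
  · simp only [Subgroup.mem_iInf, MulAction.mem_stabilizer_iff]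
    exact hg
  · simp only [Subgroup.mem_iInf, MulAction.mem_stabilizer_iff] at hg
    exact hK g hg
  · simp only [Subgroup.coe_iInf]
    exact isClosed_biInter fun a _ => h3 a

end Vale.Agent.P323
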