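import Vale.Agent.P323.N.Root
import Vale.Agent.P323.N.Law
import Vale.Agent.P323.N.Perm
import Vale.Agent.P323.Uniform
import Vale.Agent.P323.WOC
import Vale.Agent.P323.Small

/-!
# Permutation models: the final statements
-/

namespace Vale.Agent.P323

universe u

theorem woc_of_ac {G : Type u} [Group G] {F : NormalFilter G} (hAC : AC F) : WOChoice F :=
  fun X Y f hf hs _ => hAC X Y f hf hs

theorem fin_small {G : Type u} [Group G] {F : NormalFilter G}
    (h : PP F → Unif F → SmallIndex F) : PP F ↔ AC F := by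
  refine ⟨fun hPP => ?_, fun hAC => pp_of_ac hAC⟩
  have hU : Unif F := fun H hH => univ hPP H hH
  obtain ⟨E, hE, hl⟩ := least_of_small hPP hU (h hPP hU)
  exact ac_of_least hE hl

theorem fin_least {G : Type u} [Group G] {F : NormalFilter G}
    (h : Unif F → ∃ E, F.mem E ∧ ∀ D, F.mem D → E ≤ D) : (WOChoice F ↔ AC F) ∧ (PP F ↔ AC F) := by
  refine ⟨⟨fun hW => ?_, woc_of_ac⟩, ⟨fun hPP => ?_, fun hAC => pp_of_ac hAC⟩⟩
  · obtain ⟨E, hE, hl⟩ := h fun H hH => univ_of_WOChoice hW H hH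
    exact ac_of_least hE hl
  · obtain ⟨E, hE, hl⟩ := h fun H hH => univ hPP H hH
    exact ac_of_least hE hl

theorem fin_root {G : Type u} [Group G] {F : NormalFilter G}
    (h : ∃ K : Subgroup G, F.mem K ∧ ∃ n : ℕ, 2 ≤ n ∧ ∀ D : Subgroup G, F.mem D →
      ∃ D' : Subgroup G, F.mem D' ∧ D' ≤ D ∧ ∀ g ∈ K, g ^ n ∈ D' → g ∈ D') : PP F ↔ AC F := by
  refine ⟨fun hPP => ?_, fun hAC => pp_of_ac hAC⟩
  obtain ⟨E, hE, hl⟩ := least_of_rootClosed hPP (fun H hH => univ hPP H hH) h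
  exact ac_of_least hE hl

theorem fin_cycle {G A : Type u} [Group G] [MulAction G A] {I : SuppIdeal G A}
    (h : ∃ e₀ : Set A, I.mem e₀ ∧ ∃ n : ℕ, 2 ≤ n ∧ ∀ g : G, (∀ a ∈ e₀, g • a = a) →
      ∀ e, I.mem e → ∀ a ∈ e, g ^ n • a = a → g • a = a) :
    PP (suppFilter I) ↔ AC (suppFilter I) := by
  obtain ⟨e₀, he₀, n, hn, hcyc⟩ := h
  let fixG : Set A → Subgroup G := fun e =>
    { carrier := {g | ∀ a ∈ e, g • a = a}
      one_mem' := fun a _ => one_smul G a
      mul_mem' := fun {x y} hx hy a ha => by rw [mul_smul, hy a ha, hx a ha]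
      inv_mem' := fun {x} hx a ha => by
        have := hx a ha
        exact inv_smul_eq_iff.mpr this.symm }
  refine fin_root ⟨fixG e₀, ⟨e₀, he₀, fun g hg => hg⟩, n, hn, ?_⟩
  rintro D ⟨e, he, hD⟩
  exact ⟨fixG e, ⟨e, he, fun g hg => hg⟩, fun g hg => hD g hg,
    fun g hg hgn a ha => hcyc g hg e he a ha (hgn a ha)⟩

end Vale.Agent.P323
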