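import Vale.Agent.P323.N.Core

/-!
# Permutation models: filters of closed subgroups of Polish groups
-/

namespace Vale.Agent.P323

open Topology

universe u

/-- In a Polish group, an increasing union of closed subgroups which is closed has countable index
over one of them. -/
theorem baire_union {G : Type u} [Group G] [TopologicalSpace G] [IsTopologicalGroup G]
    [PolishSpace G] {P : ℕ → Subgroup G} (hP : ∀ n, IsClosed (P n : Set G)) {U : Subgroup G}
    (hU : IsClosed (U : Set G)) (hPU : ∀ x ∈ U, ∃ n, x ∈ P n) :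
    ∃ n, ∃ T : Set G, T.Countable ∧ ∀ x ∈ U, ∃ t ∈ T, t⁻¹ * x ∈ P n := by
  have : PolishSpace U := hU.polishSpace
  have hc : ∀ n, IsClosed {x : U | (x : G) ∈ P n} := fun n =>
    (hP n).preimage continuous_subtype_val
  have hun : (⋃ n, {x : U | (x : G) ∈ P n}) = Set.univ := by
    ext x
    simpa using hPU x x.2
  obtain ⟨n, hn⟩ := nonempty_interior_of_iUnion_of_closed hc hun
  have hopen : IsOpen (((P n).subgroupOf U : Subgroup U) : Set U) := by
    obtain ⟨x, hx⟩ := hn
    exact Subgroup.isOpen_of_mem_nhds _ (g := x)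
      (mem_interior_iff_mem_nhds.mp hx)
  obtain ⟨S, hS, hSd⟩ := TopologicalSpace.exists_countable_dense U
  refine ⟨n, Subtype.val '' S, hS.image _, ?_⟩
  intro x hx
  have h1 : IsOpen ((fun y : U => (⟨x, hx⟩ : U)⁻¹ * y) ⁻¹'
      (((P n).subgroupOf U : Subgroup U) : Set U)) :=
    hopen.preimage (continuous_const_mul _)
  obtain ⟨t, htS, ht⟩ := hSd.exists_mem_open h1 ⟨⟨x, hx⟩, by simp⟩
  refine ⟨t, ⟨t, htS, rfl⟩, ?_⟩
  have h2 : (((⟨x, hx⟩ : U)⁻¹ * t : U) : G) ∈ P n := ht
  have h3 := (P n).inv_mem h2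
  have e : ((((⟨x, hx⟩ : U)⁻¹ * t : U) : G))⁻¹ = (t : G)⁻¹ * x := by
    push_cast
    group
  rwa [e] at h3

/-- the union of the groups `v⁻ⁿ L vⁿ` is closed: then `L / v L v⁻¹` is countable -/
theorem CC_of_closed {G : Type u} [Group G] [TopologicalSpace G] [IsTopologicalGroup G]
    [PolishSpace G] {L : Subgroup G} (hL : IsClosed (L : Set G)) {v : G}
    (hv : ∀ x ∈ L, v * x * v⁻¹ ∈ L) (hU : IsClosed (LL L v hv : Set G)) : CC L v := by
  let P : ℕ → Subgroup G := fun n => L.comap (MulAut.conj (v ^ n)).toMonoidHom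
  have hPm : ∀ n x, x ∈ P n ↔ v ^ n * x * (v ^ n)⁻¹ ∈ L := fun n x => Iff.rfl
  have hP : ∀ n, IsClosed (P n : Set G) := by
    intro n
    have hcont : Continuous fun x : G => v ^ n * x * (v ^ n)⁻¹ := by fun_prop
    exact hL.preimage hcont
  obtain ⟨n, T, hT, hTU⟩ := baire_union hP hU (fun x hx => hx)
  refine ⟨(fun t => v ^ (n + 1) * t * (v ^ n)⁻¹) '' T, hT.image _, ?_⟩
  intro l hl
  have hx : (v ^ (n + 1))⁻¹ * l * v ^ (n + 1) ∈ LL L v hv := by
    refine ⟨n + 1, ?_⟩
    have e : v ^ (n + 1) * ((v ^ (n + 1))⁻¹ * l * v ^ (n + 1)) * (v ^ (n + 1))⁻¹ = l := by group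
    rwa [e]
  obtain ⟨t, ht, htx⟩ := hTU _ hx
  refine ⟨_, ⟨t, ht, rfl⟩, ?_⟩
  rw [hPm] at htx
  have e : v ^ n * (t⁻¹ * ((v ^ (n + 1))⁻¹ * l * v ^ (n + 1))) * (v ^ n)⁻¹ =
      (v ^ (n + 1) * t * (v ^ n)⁻¹)⁻¹ * (l * v) := by
    rw [pow_succ]
    group
  rwa [e] at htx

/-- **Polish groups.** A permutation model given by a filter with a base of closed subgroups of a
Polish group has small indices as soon as the partition principle holds. -/
theorem smallIndex_of_polish {G : Type u} [Group G] [TopologicalSpace G] [IsTopologicalGroup G]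
    [PolishSpace G] {F : NormalFilter G} (hPP : PP F) (hUn : Unif F)
    (hbase : ∀ K : Subgroup G, F.mem K → ∃ D : Subgroup G, F.mem D ∧ D ≤ K ∧
      IsClosed (D : Set G)) : SmallIndex F := by
  -- all small groups of the filter are closed
  obtain ⟨D₀, hD₀, -, hD₀u⟩ := hUn ⊤ F.top_mem
  obtain ⟨D, hD, hDD, hDc⟩ := hbase D₀ hD₀
  obtain ⟨K, hK, -, hcode⟩ := coded_at hPP F.top_mem hD (fun V hV => by
    obtain ⟨h, hh, hx⟩ := hD₀u V hV
    exact ⟨h, hh, fun x hx' => hx x (hDD hx')⟩)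
  obtain ⟨E, hE, hEK, hEc⟩ := hbase K hK
  have hclosed : ∀ P : Subgroup G, F.mem P → P ≤ E → IsClosed (P : Set G) := by
    intro P hP hPE
    obtain ⟨h, -, hx⟩ := hcode P hP (hPE.trans hEK)
    have hcont : Continuous fun x : G => h⁻¹ * x * h := by fun_prop
    have e : (P : Set G) = (E : Set G) ∩ (fun x : G => h⁻¹ * x * h) ⁻¹' (D : Set G) := by
      ext x
      constructor
      · intro hxP
        exact ⟨hPE hxP, ((hx x).mp hxP).2⟩
      · rintro ⟨h1, h2⟩
        exact (hx x).mpr ⟨hEK h1, h2⟩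
    rw [e]
    exact hEc.inter (hDc.preimage hcont)
  -- a universal subgroup of `E`
  obtain ⟨L, hL, hLE, hLu⟩ := hUn E hE
  have hCC : ∀ g ∈ E, CC L g := fun g hg => CC_of_univ hL hLu (fun v hvE hv =>
    CC_of_closed (hclosed L hL hLE) hv (hclosed _ (F.up hL (le_LL L v hv))
      ((LL_le_MM L v hv 1).trans (MM_le hv hLE hvE 1)))) hg
  -- a countable dense subset
  have : PolishSpace E := hEc.polishSpace
  obtain ⟨S, hS, hSd⟩ := TopologicalSpace.exists_countable_dense E
  obtain ⟨W, hW, hWQ⟩ := countable_closure (L := L) (S := Subtype.val '' S) (hS.image _)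
    (by rintro _ ⟨g, -, rfl⟩; exact hCC g g.2)
    (by rintro _ ⟨g, -, rfl⟩; exact hCC _ (E.inv_mem g.2))
  have hQE : Subgroup.closure ((L : Set G) ∪ Subtype.val '' S) ≤ E := by
    rw [Subgroup.closure_le]
    rintro x (hx | ⟨g, -, rfl⟩)
    · exact hLE hx
    · exact g.2
  have hQc := hclosed _ (F.up hL fun x hx => Subgroup.subset_closure (Or.inl hx)) hQE
  refine smallIndex_of_countable hE hLu hW ?_
  intro x hx
  apply hWQ
  have h1 : IsClosed ((Subtype.val : E → G) ⁻¹'
      (Subgroup.closure ((L : Set G) ∪ Subtype.val '' S) : Set G)) :=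
    hQc.preimage continuous_subtype_val
  have h2 : (Subtype.val : E → G) ⁻¹'
      (Subgroup.closure ((L : Set G) ∪ Subtype.val '' S) : Set G) = Set.univ := by
    apply h1.closure_eq ▸ (hSd.mono ?_).closure_eq
    intro g hg
    exact Subgroup.subset_closure (Or.inr ⟨g, hg, rfl⟩)
  have h3 : (⟨x, hx⟩ : E) ∈ (Subtype.val : E → G) ⁻¹'
      (Subgroup.closure ((L : Set G) ∪ Subtype.val '' S) : Set G) := by
    rw [h2]
    trivial
  exact h3

end Vale.Agent.P323
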