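import Vale.Agent.P323.N.Core

/-!
# Permutation models: root-closed groups; no proper self-conjugation
-/

namespace Vale.Agent.P323

universe u

variable {G : Type u} [Group G] {F : NormalFilter G}

/-- a contracting element in each group of a filter with the uniformity property and no least
member -/
theorem exists_contract (hU : Unif F) (hcon : ∀ E, F.mem E → ∃ D, F.mem D ∧ ¬ E ≤ D)
    {K : Subgroup G} (hK : F.mem K) :
    ∃ E : Subgroup G, F.mem E ∧ E ≤ K ∧ ∃ g ∈ K, ∃ _ : ∀ x ∈ E, g * x * g⁻¹ ∈ E, ∃ y ∈ E,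
      g⁻¹ * y * g ∉ E := by
  obtain ⟨E₀, hE₀, hE₀K, huniv⟩ := hU K hK
  obtain ⟨D, hD, hED⟩ := hcon E₀ hE₀
  obtain ⟨y, hyE, hyD⟩ := Set.not_subset.mp hED
  obtain ⟨g, hgK, hg⟩ := huniv (E₀ ⊓ D) (F.inter hE₀ hD)
  refine ⟨E₀, hE₀, hE₀K, g, hgK, fun x hx => (hg x hx).1, y, hyE, ?_⟩
  intro h
  apply hyD
  have := (hg _ h).2
  have e : g * (g⁻¹ * y * g) * g⁻¹ = y := by group
  rwa [e] at this

/-- the filter has a base of groups which are not conjugate, in `K`, to proper subgroups of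
themselves -/
theorem least_of_noSelfConj (hU : Unif F)
    (h : ∃ K : Subgroup G, F.mem K ∧ ∀ D : Subgroup G, F.mem D →
      ∃ D' : Subgroup G, F.mem D' ∧ D' ≤ D ∧ ∀ g ∈ K,
        (∀ x ∈ D', g * x * g⁻¹ ∈ D') → ∀ x ∈ D', g⁻¹ * x * g ∈ D') :
    ∃ E, F.mem E ∧ ∀ D, F.mem D → E ≤ D := by
  by_contra hcon
  push Not at hcon
  obtain ⟨K, hK, hs⟩ := h
  obtain ⟨E, hE, -, hu⟩ := hU K hK
  obtain ⟨E', hE', hEE, hE's⟩ := hs E hE
  obtain ⟨D, hD, hED⟩ := hcon E' hE'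
  obtain ⟨y, hyE, hyD⟩ := Set.not_subset.mp hED
  obtain ⟨g, hg, hgx⟩ := hu (E' ⊓ D) (F.inter hE' hD)
  have h1 := hE's g hg (fun x hx => (hgx x (hEE hx)).1) y hyE
  apply hyD
  have h2 := (hgx _ (hEE h1)).2
  have e : g * (g⁻¹ * y * g) * g⁻¹ = y := by group
  rwa [e] at h2

/-- the filter has a base of groups closed under `n`-th roots taken in `K` -/
theorem least_of_rootClosed (hPP : PP F) (hU : Unif F)
    (h : ∃ K : Subgroup G, F.mem K ∧ ∃ n : ℕ, 2 ≤ n ∧ ∀ D : Subgroup G, F.mem D →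
      ∃ D' : Subgroup G, F.mem D' ∧ D' ≤ D ∧ ∀ g ∈ K, g ^ n ∈ D' → g ∈ D') :
    ∃ E, F.mem E ∧ ∀ D, F.mem D → E ≤ D := by
  by_contra hcon
  push Not at hcon
  obtain ⟨K, hK, n, hn, hroot⟩ := h
  obtain ⟨D₀, hD₀, hD₀K, huniv⟩ := hU K hK
  obtain ⟨D, hD, hDD, hDr⟩ := hroot D₀ hD₀
  obtain ⟨K₁, hK₁, hK₁K, hcode⟩ := coded_at hPP hK hD (fun V hV => by
    obtain ⟨h, hh, hx⟩ := huniv V hV
    exact ⟨h, hh, fun x hx' => hx x (hDD hx')⟩)
  obtain ⟨E, hE, hEK, g, hgK, hg1, y, hy, hy'⟩ := exists_contract hU hcon hK₁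
  obtain ⟨k, hk, hP⟩ := hcode (MM E g hg1 n)
    (F.up hE ((le_LL E g hg1).trans (LL_le_MM E g hg1 n))) (MM_le hg1 hEK hgK n)
  have h1 : g ^ n ∈ MM E g hg1 n := by
    have := (zpow_MM hg1 hy hy' (n := n) (k := n)).mpr dvd_rfl
    rwa [zpow_natCast] at this
  have h2 : g ∈ MM E g hg1 n := by
    rw [hP]
    refine ⟨hgK, hDr _ (K.mul_mem (K.mul_mem (K.inv_mem hk) (hK₁K hgK)) hk) ?_⟩
    have h3 := ((hP _).mp h1).2
    have e : (k⁻¹ * g * k) ^ n = k⁻¹ * g ^ n * k := by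
      have := (conj_pow (i := n) (a := k⁻¹) (b := g)).symm
      simpa using this.symm
    rwa [e]
  have h3 : (n : ℤ) ∣ 1 := by
    apply (zpow_MM hg1 hy hy' (n := n) (k := 1)).mp
    simpa using h2
  have h4 := Int.le_of_dvd one_pos h3
  omega

end Vale.Agent.P323
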